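import Mathlib

/-!
# P076, H141: unit separation of a planar family with at most `B` points per unit cell

`usep`: a finite family with at most `B` members per unit cell is split by a colouring with
`4 * B` colours into classes whose members are pairwise `1`-separated in one of the two
coordinates.
-/

namespace Vale.Agent.P076.H141

theorem inj_of_card {I : Type*} (s : Finset I) (B : ℕ) (h0 : 0 < B) (h : s.card ≤ B) :
    ∃ g : I → Fin B, Set.InjOn g (s : Set I) := by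
  classical
  refine ⟨fun i => if hi : i ∈ s then Fin.castLE h (s.equivFin ⟨i, hi⟩) else ⟨0, h0⟩, ?_⟩
  intro i hi j hj hij
  have hi' : i ∈ s := hi
  have hj' : j ∈ s := hj
  simp only [hi', hj', dif_pos] at hij
  have h1 := Fin.castLE_injective h hij
  have h2 := s.equivFin.injective h1
  exact congrArg Subtype.val h2

theorem one_le_abs_sub_of_floor {x y : ℝ} (h : 2 ≤ |⌊x⌋ - ⌊y⌋|) : 1 ≤ |x - y| := by
  have hx1 := Int.floor_le x
  have hx2 := Int.lt_floor_add_one x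
  have hy1 := Int.floor_le y
  have hy2 := Int.lt_floor_add_one y
  rcases le_abs.mp h with h1 | h1
  · have h3 : (2 : ℝ) ≤ (⌊x⌋ : ℝ) - (⌊y⌋ : ℝ) := by exact_mod_cast h1
    rw [le_abs]; left; linarith
  · have h3 : (2 : ℝ) ≤ -((⌊x⌋ : ℝ) - (⌊y⌋ : ℝ)) := by exact_mod_cast h1
    rw [le_abs]; right; linarith

/-- `usep`: `4 * B` colours suffice to make the classes unit separated. -/
theorem usep {I : Type*} (A : Finset I) (u v : I → ℝ) (B : ℕ) (h0 : 0 < B)
    (hB : ∀ p q : ℤ, (A.filter fun i => ⌊u i⌋ = p ∧ ⌊v i⌋ = q).card ≤ B) :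
    ∃ f : I → Fin 4 × Fin B, ∀ c, ∀ i ∈ A, ∀ j ∈ A, f i = c → f j = c → i ≠ j →
      1 ≤ |u i - u j| ∨ 1 ≤ |v i - v j| := by
  classical
  choose g hg using fun p q : ℤ => inj_of_card (A.filter fun i => ⌊u i⌋ = p ∧ ⌊v i⌋ = q) B h0 (hB p q)
  refine ⟨fun i => (⟨(⌊u i⌋ % 2).toNat * 2 + (⌊v i⌋ % 2).toNat, by omega⟩,
    g ⌊u i⌋ ⌊v i⌋ i), ?_⟩
  intro c i hi j hj hic hjc hij
  have he := hic.trans hjc.symm
  rw [Prod.mk.injEq, Fin.mk.injEq] at he
  obtain ⟨he1, he2⟩ := he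
  by_cases hu : ⌊u i⌋ = ⌊u j⌋
  · by_cases hv : ⌊v i⌋ = ⌊v j⌋
    · exfalso
      apply hij
      apply hg ⌊u j⌋ ⌊v j⌋
      · simp [hi, hu, hv]
      · simp [hj]
      · rw [hu, hv] at he2
        exact he2
    · right
      apply one_le_abs_sub_of_floor
      rw [le_abs]
      omega
  · left
    apply one_le_abs_sub_of_floor
    rw [le_abs]
    omega

/-- the form without `0 < B` (one spare colour). -/
theorem usep' {I : Type*} (A : Finset I) (u v : I → ℝ) (B : ℕ)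
    (hB : ∀ p q : ℤ, (A.filter fun i => ⌊u i⌋ = p ∧ ⌊v i⌋ = q).card ≤ B) :
    ∃ f : I → Fin 4 × Fin (B + 1), ∀ c, ∀ i ∈ A, ∀ j ∈ A, f i = c → f j = c → i ≠ j →
      1 ≤ |u i - u j| ∨ 1 ≤ |v i - v j| :=
  usep A u v (B + 1) (Nat.succ_pos B) fun p q => (hB p q).trans (Nat.le_succ B)

end Vale.Agent.P076.H141
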